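import Vale.Agent.P171.Main

/-!
A continuous, stable, tempered radial pair potential on three-space whose pressure is not
differentiable in the activity at some point.
-/

namespace Vale.Agent.Results.P171.PhaseTransition

open MeasureTheory Filter
open scoped Topology

noncomputable section

/-- Three-dimensional Euclidean space. -/
abbrev Space := EuclideanSpace ℝ (Fin 3)

/-- The energy `U_N`: the sum of `φ` of the distance over pairs `i < j`. -/
def energy (φ : ℝ → ℝ) {N : ℕ} (x : Fin N → Space) : ℝ :=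
  ∑ i : Fin N, ∑ j ∈ Finset.univ.filter (fun j => i < j), φ (dist (x i) (x j))

/-- Stability on configurations of distinct points. -/
def IsStable (φ : ℝ → ℝ) : Prop :=
  ∃ B : ℝ, ∀ (N : ℕ) (x : Fin N → Space), Function.Injective x → -B * N ≤ energy φ x

/-- Temperedness. -/
def IsTempered (φ : ℝ → ℝ) : Prop :=
  ∃ C ε R₀ : ℝ, 0 < C ∧ 0 < ε ∧ 0 < R₀ ∧ ∀ r, R₀ ≤ r → φ r ≤ C * r ^ (-3 - ε)

/-- The configurations in the closed cube `[0, L]^3`. -/
def cube (L : ℝ) (N : ℕ) : Set (Fin N → Space) := {x | ∀ i c, x i c ∈ Set.Icc (0 : ℝ) L}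

/-- The canonical partition function `Z_{L,N}(β)`; it equals `1` for `N = 0`. -/
def canonical (φ : ℝ → ℝ) (β L : ℝ) (N : ℕ) : ℝ :=
  (N.factorial : ℝ)⁻¹ * ∫ x in cube L N, Real.exp (-β * energy φ x)

open Vale.Agent.P171

lemma energy_eq_pairSum (a : ℕ → ℝ) {N : ℕ} (x : Fin N → Space) (hx : Function.Injective x) :
    pairSum (KK a) x = -energy (phi a) x := by
  classical
  set f : Fin N → Fin N → ℝ := fun i j => if i < j then phi a (dist (x i) (x j)) else 0 with hf
  have hK : ∀ i j, KK a (x i) (x j) = -(f i j + f j i) / 2 := by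
    intro i j
    rcases lt_trichotomy i j with h | rfl | h
    · simp [KK, rad, hf, h, not_lt.mpr h.le, hx.ne h.ne]
    · simp [KK, rad, hf]
    · simp [KK, rad, hf, h, not_lt.mpr h.le, hx.ne h.ne', dist_comm]
  have he : energy (phi a) x = ∑ i, ∑ j, f i j := by
    simp only [energy, hf, Finset.sum_filter]
  rw [he]
  simp only [pairSum, hK, ← Finset.sum_div, Finset.sum_neg_distrib, Finset.sum_add_distrib]
  rw [Finset.sum_comm (f := fun i j => f j i)]
  ring

lemma measurable_energy (a : ℕ → ℝ) (N : ℕ) :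
    Measurable fun x : Fin N → Space => energy (phi a) x := by
  refine Finset.measurable_fun_sum _ fun i _ => Finset.measurable_fun_sum _ fun j _ => ?_
  exact (measurable_phi a).comp ((measurable_pi_apply i).dist (measurable_pi_apply j))

lemma cube_ae_eq (L : ℝ) (N : ℕ) :
    cube L N =ᵐ[volume] Set.univ.pi fun _ : Fin N => box L := by
  have h := PiLp.volume_preserving_ofLp (Fin 3)
  have hbox : box L = (@WithLp.ofLp 2 (Fin 3 → ℝ)) ⁻¹' (Set.univ.pi fun _ => Set.Ico (0 : ℝ) L) := by
    ext p; simp [box]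
  have hc : cube L N = Set.univ.pi fun _ : Fin N =>
      (@WithLp.ofLp 2 (Fin 3 → ℝ)) ⁻¹' Set.Icc (fun _ => (0 : ℝ)) (fun _ => L) := by
    ext x
    simp [cube, Pi.le_def, forall_and]
  rw [hc, volume_pi]
  refine Measure.ae_eq_set_pi fun i _ => ?_
  rw [hbox]
  exact (h.quasiMeasurePreserving.preimage_ae_eq Measure.univ_pi_Ico_ae_eq_Icc).symm

lemma canonical_term (a : ℕ → ℝ) {L z : ℝ} (hz : 0 < z) (N : ℕ)
    (hfin : cInt (Fin N) (box L) (Real.log z) (KK a) ≠ ⊤) :
    IntegrableOn (fun x => Real.exp (-(1 : ℝ) * energy (phi a) x)) (cube L N) ∧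
      z ^ N * canonical (phi a) 1 L N
        = (((N.factorial : ENNReal))⁻¹ * cInt (Fin N) (box L) (Real.log z) (KK a)).toReal := by
  set E : (Fin N → Space) → ℝ := fun x => Real.exp (-(1 : ℝ) * energy (phi a) x) with hE
  have hEm : Measurable E :=
    Real.measurable_exp.comp ((measurable_energy a N).const_mul (-(1 : ℝ)))
  have key : cInt (Fin N) (box L) (Real.log z) (KK a)
      = ENNReal.ofReal (z ^ N) * ∫⁻ x in cube L N, ENNReal.ofReal (E x) := by
    rw [← lintegral_const_mul _ hEm.ennreal_ofReal, setLIntegral_congr (cube_ae_eq L N)]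
    refine lintegral_congr_ae ?_
    filter_upwards [ae_restrict_of_ae ae_injective] with x hx
    rw [← ENNReal.ofReal_mul (by positivity), wt, logW_eq_pairSum, Fintype.card_fin,
      energy_eq_pairSum a x hx, Real.exp_add, mul_comm (Real.log z), Real.exp_nat_mul,
      Real.exp_log hz, hE]
    simp only [neg_mul, one_mul]
  have hne : ∫⁻ x in cube L N, ENNReal.ofReal (E x) ≠ ⊤ := by
    intro h
    rw [key, h, ENNReal.mul_top (ENNReal.ofReal_pos.mpr (by positivity)).ne'] at hfin
    exact hfin rfl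
  have hnn : 0 ≤ᵐ[volume.restrict (cube L N)] E :=
    Eventually.of_forall fun x => (Real.exp_pos _).le
  refine ⟨(lintegral_ofReal_ne_top_iff_integrable hEm.aestronglyMeasurable hnn).mp hne, ?_⟩
  rw [canonical, integral_eq_lintegral_of_nonneg_ae hnn hEm.aestronglyMeasurable, key,
    ENNReal.toReal_mul, ENNReal.toReal_mul, ENNReal.toReal_ofReal (by positivity),
    ENNReal.toReal_inv, ENNReal.toReal_natCast]
  ring

/-- There is a stable, tempered, radial pair potential, continuous (hence Borel and locally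
bounded) on `(0, ∞)`, whose pressure exists for every positive activity and is not differentiable
in the activity at some positive point, at some inverse temperature. -/
theorem result :
    ∃ φ : ℝ → ℝ, Measurable φ ∧ ContinuousOn φ (Set.Ioi 0) ∧
      (∀ a b : ℝ, 0 < a → ∃ M, ∀ r ∈ Set.Icc a b, |φ r| ≤ M) ∧
      IsStable φ ∧ IsTempered φ ∧
      ∃ β : ℝ, 0 < β ∧ ∃ P : ℝ → ℝ,
        (∀ z : ℝ, 0 < z →
          (∀ L : ℝ, 0 < L →
            (∀ N : ℕ, IntegrableOn (fun x => Real.exp (-β * energy φ x)) (cube L N)) ∧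
            Summable fun N : ℕ => z ^ N * canonical φ β L N) ∧
          Tendsto (fun L : ℝ => Real.log (∑' N : ℕ, z ^ N * canonical φ β L N) / L ^ 3)
            atTop (𝓝 (P z))) ∧
        ∃ z₀ : ℝ, 0 < z₀ ∧ ¬ DifferentiableAt ℝ P z₀ := by
  obtain ⟨t, a, ha, hnd⟩ := exists_corner
  refine ⟨phi a, measurable_phi a, continuousOn_phi a, ?_, ?_, ?_, 1, one_pos,
    fun z => Pr (Real.log z) a, ?_, Real.exp t, Real.exp_pos t, ?_⟩
  · intro c d hc
    obtain ⟨M, hM⟩ := (isCompact_Icc (a := c) (b := d)).exists_bound_of_continuousOn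
      ((continuousOn_phi a).mono fun r hr => lt_of_lt_of_le hc hr.1)
    exact ⟨M, fun r hr => hM r hr⟩
  · obtain ⟨B, -, hB⟩ := KK_upper ‖a‖ 0 (norm_nonneg _) le_rfl
    refine ⟨B, fun N x hx => ?_⟩
    have h := hB a (par_summable a) (par_norm a).ge N x hx
    rw [zero_mul, add_zero, energy_eq_pairSum _ x hx] at h
    linarith
  · refine ⟨1, 1, 1, one_pos, one_pos, one_pos, fun r hr => ?_⟩
    refine (phi_nonpos ha hr).trans ?_
    have : 0 ≤ r := le_trans zero_le_one hr
    positivity
  · intro z hz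
    have hfin : ∀ (L : ℝ) (N : ℕ), ((N.factorial : ENNReal))⁻¹
        * cInt (Fin N) (box L) (Real.log z) (KK a) ≠ ⊤ :=
      fun L N => ne_top_of_le_ne_top (gcK_finite a _ L) (ENNReal.le_tsum N)
    have hfin' : ∀ (L : ℝ) (N : ℕ), cInt (Fin N) (box L) (Real.log z) (KK a) ≠ ⊤ := by
      intro L N h
      refine hfin L N ?_
      rw [h, ENNReal.mul_top (ENNReal.inv_ne_zero.mpr (ENNReal.natCast_ne_top _))]
    have hterm := fun (L : ℝ) (N : ℕ) => canonical_term a (L := L) hz N (hfin' L N)
    refine ⟨fun L _ => ⟨fun N => (hterm L N).1, ?_⟩, ?_⟩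
    · simp only [fun N => (hterm L N).2]
      exact ENNReal.summable_toReal (gcK_finite a _ L)
    · refine (tendsto_Pr a ha (Real.log z)).congr fun L => ?_
      simp only [fun N => (hterm L N).2]
      rw [lg, gc, ENNReal.tsum_toReal_eq (hfin L)]
  · intro h
    refine hnd ?_
    have hc := h.comp t Real.differentiableAt_exp
    simpa [Function.comp_def] using hc

end

end Vale.Agent.Results.P171.PhaseTransition
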